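import Vale.Agent.P359.Lim.Tendsto.Asymp

/-!
# P359: the limit of the recoupling scalar in closed form
-/

noncomputable section

namespace P359

open Finset Filter Topology

/-- Size of the limit of `scal`. -/
def scalPre (σ β β' : ℝ) (n n' l l' : ℕ) : ℝ :=
  (n.factorial : ℝ) * (l'.factorial : ℝ) * (l.factorial : ℝ) * σ ^ n' * β' ^ n' * β ^ (n + l')
    * (σ + β + β') ^ l /
    ((n'.factorial : ℝ) * (σ + β) ^ n * (σ + β') ^ (n' + l') * (σ + β' + β) ^ l' * β' ^ l * σ ^ n
      * (σ + β) ^ l)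

/-- The finite sum in the limit of `scal`. -/
def scalSum (σ β β' : ℝ) (n n' l : ℕ) : ℝ :=
  ∑ i ∈ range (n + 1),
    if n' ≤ l + i then
      (-1 : ℝ) ^ i * (n'.choose i : ℝ) * (β' ^ (l + i - n') / ((l + i - n').factorial : ℝ))
        * ((σ * (σ + β') / β + σ) ^ (n - i) / ((n - i).factorial : ℝ))
    else 0

/-- Binomial collapse of the inner sum. -/
lemma sum_exp_collapse (x y : ℝ) (n : ℕ) :
    ∑ k ∈ range (n + 1), x ^ k / (k.factorial : ℝ) * (y ^ (n - k) / ((n - k).factorial : ℝ))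
      = (x + y) ^ n / (n.factorial : ℝ) := by
  rw [add_pow, sum_div]
  refine sum_congr rfl fun k hk => ?_
  rw [mem_range] at hk
  rw [Nat.cast_choose ℝ (by omega : k ≤ n)]
  field_simp

lemma term_eq {σ β β' : ℝ} (hσ : 0 < σ) (hβ : 0 < β) (hβ' : 0 < β') {n n' l l' k : ℕ}
    (hkn : k ≤ n) (hkl : k ≤ l') (h : n + l = n' + l') :
    coupLim σ β n 0 (n - k) k * coupLim σ β' n' (l' - k) (n - k) l
        * coupLim (σ + β') β l' 0 (l' - k) k
      = coupLim (σ + β) β' l 0 0 l *
        ((-1 : ℝ) ^ (n + l') * Real.sqrt (scalPre σ β β' n n' l l') *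
          ((σ * (σ + β') / β) ^ k / (k.factorial : ℝ) *
            ∑ i ∈ range (n' + 1),
              if i ≤ n - k ∧ n' ≤ l + i then
                (-1 : ℝ) ^ i * (n'.choose i : ℝ) * (σ ^ (n - k - i) / ((n - k - i).factorial : ℝ))
                  * (β' ^ (l + i - n') / ((l + i - n').factorial : ℝ))
              else 0)) := by
  have hA : 0 < σ + β' := by linarith
  have hB : 0 < σ + β := by linarith
  rw [coupLim_zero hσ hβ hkn, coupLim_zero hA hβ hkl]
  have h0 := coupLim_zero hB hβ' (le_refl l)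
  rw [Nat.sub_self] at h0
  rw [h0]
  unfold coupLim
  set S := ∑ i ∈ range (n' + 1),
    if i ≤ n - k ∧ n' ≤ l + i then
      (-1 : ℝ) ^ i * (n'.choose i : ℝ) * (σ ^ (n - k - i) / ((n - k - i).factorial : ℝ))
        * (β' ^ (l + i - n') / ((l + i - n').factorial : ℝ))
    else 0
  set R₁ := Real.sqrt ((n.factorial : ℝ) * σ ^ k * β ^ (n - k)
    / ((k.factorial : ℝ) * ((n - k).factorial : ℝ) * (σ + β) ^ n))
  set R₂ := Real.sqrt ((σ + β') ^ (l' - k) / ((l' - k).factorial : ℝ)
    * (σ ^ (n - k) / ((n - k).factorial : ℝ)) * (β' ^ l / (l.factorial : ℝ))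
    * ((n'.factorial : ℝ) * (1 / σ + 1 / β') ^ n'))
  set R₃ := Real.sqrt ((l'.factorial : ℝ) * (σ + β') ^ k * β ^ (l' - k)
    / ((k.factorial : ℝ) * ((l' - k).factorial : ℝ) * (σ + β' + β) ^ l'))
  set R₀ := Real.sqrt ((l.factorial : ℝ) * (σ + β) ^ l * β' ^ 0
    / ((l.factorial : ℝ) * ((0 : ℕ).factorial : ℝ) * (σ + β + β') ^ l))
  set G := Real.sqrt (scalPre σ β β' n n' l l')
  have sgn : (-1 : ℝ) ^ (n + l') = (-1 : ℝ) ^ (n - k) * (-1 : ℝ) ^ (l' - k) := by
    rw [show n + l' = (n - k) + (l' - k) + 2 * k by omega, pow_add, pow_add, pow_mul, neg_one_sq,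
      one_pow, mul_one]
  have hR : R₁ * R₃ / R₂ = R₀ * G * ((σ * (σ + β') / β) ^ k / (k.factorial : ℝ)) := by
    refine (sq_eq_sq₀ (by positivity) (by positivity)).1 ?_
    simp only [R₁, R₂, R₃, R₀, G, mul_pow, div_pow]
    rw [Real.sq_sqrt (by positivity), Real.sq_sqrt (by positivity), Real.sq_sqrt (by positivity),
      Real.sq_sqrt (by positivity), Real.sq_sqrt (by unfold scalPre; positivity)]
    unfold scalPre
    rw [div_add_div _ _ hσ.ne' hβ'.ne', one_mul, mul_one, add_comm β' σ, div_pow, mul_pow]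
    have eσ : σ ^ n = σ ^ (n - k) * σ ^ k := by rw [← pow_add, Nat.sub_add_cancel hkn]
    have eβ : β ^ (n + l') = β ^ (n - k) * β ^ (l' - k) * (β ^ k) ^ 2 := by
      rw [← pow_mul, ← pow_add, ← pow_add]; congr 1; omega
    have eA : (σ + β') ^ (n' + l') = (σ + β') ^ n' * (σ + β') ^ (l' - k) * (σ + β') ^ k := by
      rw [← pow_add, ← pow_add]; congr 1; omega
    rw [eσ, eβ, eA]
    simp only [pow_zero, Nat.factorial_zero, Nat.cast_one, mul_one]
    field_simp
  calc (-1 : ℝ) ^ (n - k) * R₁ * (S / R₂) * ((-1 : ℝ) ^ (l' - k) * R₃)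
      = (-1 : ℝ) ^ (n + l') * (R₁ * R₃ / R₂) * S := by rw [sgn]; ring
    _ = _ := by rw [hR, pow_zero]; ring

theorem tendsto_scal {s b b' : ℕ → ℕ} {σ β β' : ℝ} (hσ : 0 < σ) (hβ : 0 < β) (hβ' : 0 < β')
    (hs : Tendsto (fun Q => (s Q : ℝ) / Q) atTop (𝓝 σ))
    (hb : Tendsto (fun Q => (b Q : ℝ) / Q) atTop (𝓝 β))
    (hb' : Tendsto (fun Q => (b' Q : ℝ) / Q) atTop (𝓝 β')) {n n' l l' : ℕ}
    (h : n + l = n' + l') :
    Tendsto (fun Q => scal (s Q) (b Q) (b' Q) n n' l l') atTop
      (𝓝 ((-1 : ℝ) ^ (n + l') * Real.sqrt (scalPre σ β β' n n' l l') * scalSum σ β β' n n' l)) := by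
  have hA : 0 < σ + β' := by linarith
  have hB : 0 < σ + β := by linarith
  have hc := tendsto_ratio_sub hB (tendsto_ratio_add hs hb) (2 * n)
  have hc' := tendsto_ratio_sub hA (tendsto_ratio_add hs hb') (2 * n')
  have hden : Tendsto (fun Q => coup (s Q + b Q - 2 * n) (b' Q) l 0 0 l) atTop
      (𝓝 (coupLim (σ + β) β' l 0 0 l)) := tendsto_coup hB hβ' hc hb' (by omega)
  have hne : coupLim (σ + β) β' l 0 0 l ≠ 0 := by
    have h0 := coupLim_zero hB hβ' (le_refl l)
    rw [Nat.sub_self] at h0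
    rw [h0, pow_zero, one_mul]
    exact (Real.sqrt_pos.2 (by positivity)).ne'
  have hnum : Tendsto (fun Q => ∑ k ∈ range (min n l' + 1),
      coup (s Q) (b Q) n 0 (n - k) k * coup (s Q) (b' Q) n' (l' - k) (n - k) l
        * coup (s Q + b' Q - 2 * n') (b Q) l' 0 (l' - k) k) atTop
      (𝓝 (∑ k ∈ range (min n l' + 1), coupLim σ β n 0 (n - k) k
        * coupLim σ β' n' (l' - k) (n - k) l * coupLim (σ + β') β l' 0 (l' - k) k)) := by
    refine tendsto_finsetSum _ fun k hk => ?_
    rw [mem_range] at hk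
    have hkn : k ≤ n := by omega
    have hkl : k ≤ l' := by omega
    exact ((tendsto_coup hσ hβ hs hb (by omega)).mul (tendsto_coup hσ hβ' hs hb' (by omega))).mul
      (tendsto_coup hA hβ hc' hb (by omega))
  have hval : (∑ k ∈ range (min n l' + 1), coupLim σ β n 0 (n - k) k
        * coupLim σ β' n' (l' - k) (n - k) l * coupLim (σ + β') β l' 0 (l' - k) k)
      = coupLim (σ + β) β' l 0 0 l *
        ((-1 : ℝ) ^ (n + l') * Real.sqrt (scalPre σ β β' n n' l l') * scalSum σ β β' n n' l) := by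
    rw [sum_congr rfl fun k hk => term_eq hσ hβ hβ' (n := n) (n' := n') (l := l) (l' := l') (k := k)
      (by rw [mem_range] at hk; omega) (by rw [mem_range] at hk; omega) h,
      ← mul_sum, ← mul_sum]
    congr 2
    set x := σ * (σ + β') / β
    rw [sum_subset (range_mono (by omega : min n l' + 1 ≤ n + 1))]
    swap
    · intro k hk hk'
      rw [mem_range] at hk hk'
      rw [sum_eq_zero fun i _ => if_neg (by omega), mul_zero]
    simp only [mul_sum]
    rw [sum_comm, scalSum]
    rw [← sum_subset (s₁ := range (min n n' + 1)) (range_mono (by omega : min n n' + 1 ≤ n' + 1))]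
    swap
    · intro i hi hi'
      rw [mem_range] at hi hi'
      refine sum_eq_zero fun k _ => ?_
      rw [if_neg (by omega), mul_zero]
    rw [← sum_subset (s₁ := range (min n n' + 1)) (range_mono (by omega : min n n' + 1 ≤ n + 1))]
    swap
    · intro i hi hi'
      rw [mem_range] at hi hi'
      simp [Nat.choose_eq_zero_of_lt (by omega : n' < i)]
    refine sum_congr rfl fun i hi => ?_
    rw [mem_range] at hi
    by_cases hl : n' ≤ l + i
    · rw [if_pos hl]
      rw [← sum_subset (s₁ := range (n - i + 1)) (range_mono (by omega : n - i + 1 ≤ n + 1))]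
      swap
      · intro k hk hk'
        rw [mem_range] at hk hk'
        rw [if_neg (by omega), mul_zero]
      rw [← sum_exp_collapse x σ (n - i), mul_sum]
      refine sum_congr rfl fun k hk => ?_
      rw [mem_range] at hk
      rw [if_pos ⟨by omega, hl⟩, show n - k - i = n - i - k by omega]
      ring
    · rw [if_neg hl]
      exact sum_eq_zero fun k _ => by rw [if_neg (fun hh => hl hh.2), mul_zero]
  rw [hval] at hnum
  have hq := hnum.div hden hne
  rw [mul_div_cancel_left₀ _ hne] at hq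
  refine hq.congr' ?_
  filter_upwards [eventually_le_of_ratio hσ hs (max n n'), eventually_le_of_ratio hβ hb n,
    eventually_le_of_ratio hβ' hb' (max n' l), eventually_le_of_ratio hB hc l,
    hden.eventually_ne hne] with Q h1 h2 h3 h4 h5
  simp only [Pi.div_apply]
  rw [div_eq_iff h5]
  exact (scal_closed (by omega) h2 (by omega) (by omega) (by omega) h4 h).symm

end P359

end
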