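import Vale.Agent.P359.Rep.Contr

/-!
# P359: large charge asymptotics of the coupling coefficients

If `a Q / Q → α` and `b Q / Q → β` with fixed indices, `coup` converges to `coupLim`.
-/

noncomputable section

namespace P359

open Finset Filter Topology

/-- The limit of an entry of `coup`. -/
def coupLim (α β : ℝ) (L J M k : ℕ) : ℝ :=
  (∑ i ∈ range (L + 1),
    if i ≤ M ∧ L ≤ k + i then
      (-1 : ℝ) ^ i * (L.choose i : ℝ) * (α ^ (M - i) / ((M - i).factorial : ℝ))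
        * (β ^ (k + i - L) / ((k + i - L).factorial : ℝ))
    else 0) /
  Real.sqrt ((α + β) ^ J / (J.factorial : ℝ) * (α ^ M / (M.factorial : ℝ))
    * (β ^ k / (k.factorial : ℝ)) * ((L.factorial : ℝ) * (1 / α + 1 / β) ^ L))

lemma tendsto_const_div_nat (c : ℝ) : Tendsto (fun Q : ℕ => c / (Q : ℝ)) atTop (𝓝 0) :=
  tendsto_const_div_atTop_nhds_zero_nat c

lemma eventually_le_of_ratio {f : ℕ → ℕ} {α : ℝ} (hα : 0 < α)
    (hf : Tendsto (fun Q => (f Q : ℝ) / Q) atTop (𝓝 α)) (m : ℕ) : ∀ᶠ Q in atTop, m ≤ f Q := by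
  filter_upwards [hf.eventually (eventually_gt_nhds (by linarith : α / 2 < α)),
    (tendsto_const_div_nat (m : ℝ)).eventually (eventually_lt_nhds (by linarith : (0 : ℝ) < α / 2)),
    eventually_gt_atTop 0] with Q h1 h2 h3
  have hQ : (0 : ℝ) < Q := by exact_mod_cast h3
  have h4 : (m : ℝ) / Q < (f Q : ℝ) / Q := h2.trans h1
  have h5 := (div_lt_div_iff_of_pos_right hQ).1 h4
  exact_mod_cast h5.le

lemma tendsto_ratio_sub {f : ℕ → ℕ} {α : ℝ} (hα : 0 < α)
    (hf : Tendsto (fun Q => (f Q : ℝ) / Q) atTop (𝓝 α)) (m : ℕ) :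
    Tendsto (fun Q => ((f Q - m : ℕ) : ℝ) / Q) atTop (𝓝 α) := by
  have h := hf.sub (tendsto_const_div_nat (m : ℝ))
  rw [sub_zero] at h
  refine h.congr' ?_
  filter_upwards [eventually_le_of_ratio hα hf m] with Q hQ
  rw [Nat.cast_sub hQ, sub_div]

lemma tendsto_ratio_add {f g : ℕ → ℕ} {α β : ℝ} (hf : Tendsto (fun Q => (f Q : ℝ) / Q) atTop (𝓝 α))
    (hg : Tendsto (fun Q => (g Q : ℝ) / Q) atTop (𝓝 β)) :
    Tendsto (fun Q => ((f Q + g Q : ℕ) : ℝ) / Q) atTop (𝓝 (α + β)) := by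
  refine (hf.add hg).congr fun Q => ?_
  push_cast
  rw [add_div]

lemma tendsto_choose {f : ℕ → ℕ} {α : ℝ} (hα : 0 < α)
    (hf : Tendsto (fun Q => (f Q : ℝ) / Q) atTop (𝓝 α)) :
    ∀ m : ℕ, Tendsto (fun Q => ((f Q).choose m : ℝ) / (Q : ℝ) ^ m) atTop
      (𝓝 (α ^ m / (m.factorial : ℝ))) := by
  intro m
  induction m with
  | zero => simp
  | succ m ih =>
    have h := (ih.mul (tendsto_ratio_sub hα hf m)).div_const ((m : ℝ) + 1)
    have e : α ^ (m + 1) / ((m + 1).factorial : ℝ) = α ^ m / (m.factorial : ℝ) * α / ((m : ℝ) + 1) := by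
      rw [Nat.factorial_succ]; push_cast; field_simp; ring
    rw [e]
    refine h.congr fun Q => ?_
    have hc : (((f Q).choose (m + 1) : ℝ)) * ((m : ℝ) + 1)
        = ((f Q).choose m : ℝ) * ((f Q - m : ℕ) : ℝ) := by
      exact_mod_cast congrArg (Nat.cast (R := ℝ)) (Nat.choose_succ_right_eq (f Q) m)
    rw [pow_succ, div_mul_div_comm, ← hc]
    have : (m : ℝ) + 1 ≠ 0 := by positivity
    field_simp

lemma tendsto_coupN {a b : ℕ → ℕ} {α β : ℝ} (hα : 0 < α) (hβ : 0 < β)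
    (ha : Tendsto (fun Q => (a Q : ℝ) / Q) atTop (𝓝 α))
    (hb : Tendsto (fun Q => (b Q : ℝ) / Q) atTop (𝓝 β)) (L : ℕ) :
    Tendsto (fun Q => coupN (a Q) (b Q) L * (Q : ℝ) ^ L) atTop
      (𝓝 ((L.factorial : ℝ) * (1 / α + 1 / β) ^ L)) := by
  have e : (L.factorial : ℝ) * (1 / α + 1 / β) ^ L = ∑ i ∈ range (L + 1),
      (L.choose i : ℝ) ^ 2 / (α ^ i / (i.factorial : ℝ) * (β ^ (L - i) / ((L - i).factorial : ℝ))) := by
    rw [add_pow, mul_sum]
    refine sum_congr rfl fun i hi => ?_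
    rw [mem_range] at hi
    rw [← Nat.choose_mul_factorial_mul_factorial (show i ≤ L by omega)]
    push_cast
    rw [div_pow, div_pow]
    field_simp
    simp
  rw [e]
  have h : Tendsto (fun Q => ∑ i ∈ range (L + 1), (L.choose i : ℝ) ^ 2 /
      (((a Q).choose i : ℝ) / (Q : ℝ) ^ i * (((b Q).choose (L - i) : ℝ) / (Q : ℝ) ^ (L - i))))
      atTop (𝓝 (∑ i ∈ range (L + 1),
      (L.choose i : ℝ) ^ 2 / (α ^ i / (i.factorial : ℝ) * (β ^ (L - i) / ((L - i).factorial : ℝ))))) :=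
    tendsto_finsetSum _ fun i _ => tendsto_const_nhds.div
      ((tendsto_choose hα ha i).mul (tendsto_choose hβ hb (L - i))) (by positivity)
  refine h.congr' ?_
  filter_upwards with Q
  rw [coupN, sum_mul]
  refine sum_congr rfl fun i hi => ?_
  rw [mem_range] at hi
  rw [div_mul_div_comm, ← pow_add, show i + (L - i) = L by omega, div_div_eq_mul_div,
    div_mul_eq_mul_div]

theorem tendsto_coup {a b : ℕ → ℕ} {α β : ℝ} (hα : 0 < α) (hβ : 0 < β)
    (ha : Tendsto (fun Q => (a Q : ℝ) / Q) atTop (𝓝 α))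
    (hb : Tendsto (fun Q => (b Q : ℝ) / Q) atTop (𝓝 β)) {L J M k : ℕ} (h : M + k = J + L) :
    Tendsto (fun Q => coup (a Q) (b Q) L J M k) atTop (𝓝 (coupLim α β L J M k)) := by
  have hab := tendsto_ratio_sub (add_pos hα hβ) (tendsto_ratio_add ha hb) (2 * L)
  have hden : Tendsto (fun Q => Real.sqrt
      (((a Q + b Q - 2 * L).choose J : ℝ) / (Q : ℝ) ^ J * (((a Q).choose M : ℝ) / (Q : ℝ) ^ M)
        * (((b Q).choose k : ℝ) / (Q : ℝ) ^ k) * (coupN (a Q) (b Q) L * (Q : ℝ) ^ L)))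
      atTop (𝓝 (Real.sqrt ((α + β) ^ J / (J.factorial : ℝ) * (α ^ M / (M.factorial : ℝ))
        * (β ^ k / (k.factorial : ℝ)) * ((L.factorial : ℝ) * (1 / α + 1 / β) ^ L)))) :=
    ((((tendsto_choose (add_pos hα hβ) hab J).mul (tendsto_choose hα ha M)).mul
      (tendsto_choose hβ hb k)).mul (tendsto_coupN hα hβ ha hb L)).sqrt
  have hnum : Tendsto (fun Q => ∑ i ∈ range (L + 1),
      if i ≤ M ∧ L ≤ k + i then
        (-1 : ℝ) ^ i * (L.choose i : ℝ) * (((a Q - L).choose (M - i) : ℝ) / (Q : ℝ) ^ (M - i))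
          * (((b Q - L).choose (k + i - L) : ℝ) / (Q : ℝ) ^ (k + i - L))
      else 0) atTop (𝓝 (∑ i ∈ range (L + 1),
      if i ≤ M ∧ L ≤ k + i then
        (-1 : ℝ) ^ i * (L.choose i : ℝ) * (α ^ (M - i) / ((M - i).factorial : ℝ))
          * (β ^ (k + i - L) / ((k + i - L).factorial : ℝ))
      else 0)) := by
    refine tendsto_finsetSum _ fun i _ => ?_
    by_cases hi : i ≤ M ∧ L ≤ k + i
    · simp only [hi, and_self, if_true]
      exact ((tendsto_choose hα (tendsto_ratio_sub hα ha L) (M - i)).const_mul _).mul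
        (tendsto_choose hβ (tendsto_ratio_sub hβ hb L) (k + i - L))
    · simp only [hi, if_false]
      exact tendsto_const_nhds
  refine (hnum.div hden ?_).congr' ?_
  · exact (Real.sqrt_pos.2 (by positivity)).ne'
  filter_upwards [eventually_gt_atTop 0, eventually_le_of_ratio hα ha L,
    eventually_le_of_ratio hβ hb L] with Q hQ hLa hLb
  have hQR : (0 : ℝ) < Q := by exact_mod_cast hQ
  have hQJ : (0 : ℝ) < (Q : ℝ) ^ J := pow_pos hQR J
  have e1 : ((a Q + b Q - 2 * L).choose J : ℝ) / (Q : ℝ) ^ J * (((a Q).choose M : ℝ) / (Q : ℝ) ^ M)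
        * (((b Q).choose k : ℝ) / (Q : ℝ) ^ k) * (coupN (a Q) (b Q) L * (Q : ℝ) ^ L)
      = ((a Q + b Q - 2 * L).choose J : ℝ) * ((a Q).choose M : ℝ) * ((b Q).choose k : ℝ)
          * coupN (a Q) (b Q) L / ((Q : ℝ) ^ J) ^ 2 := by
    have : ((Q : ℝ) ^ M) * (Q : ℝ) ^ k = (Q : ℝ) ^ J * (Q : ℝ) ^ L := by
      rw [← pow_add, ← pow_add, h]
    field_simp
    linear_combination -(((a Q + b Q - 2 * L).choose J : ℝ) * ((a Q).choose M : ℝ)
      * ((b Q).choose k : ℝ) * coupN (a Q) (b Q) L) * this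
  have e2 : (∑ i ∈ range (L + 1),
      if i ≤ M ∧ L ≤ k + i then
        (-1 : ℝ) ^ i * (L.choose i : ℝ) * (((a Q - L).choose (M - i) : ℝ) / (Q : ℝ) ^ (M - i))
          * (((b Q - L).choose (k + i - L) : ℝ) / (Q : ℝ) ^ (k + i - L))
      else 0) = coupRaw (a Q) (b Q) L M k / (Q : ℝ) ^ J := by
    rw [coupRaw, sum_div]
    refine sum_congr rfl fun i hi => ?_
    by_cases hc : i ≤ M ∧ L ≤ k + i
    · simp only [hc, and_self, if_true]
      rw [← show (Q : ℝ) ^ (M - i) * (Q : ℝ) ^ (k + i - L) = (Q : ℝ) ^ J by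
        rw [← pow_add]; congr 1; omega]
      field_simp
    · simp [hc]
  simp only [Pi.div_apply]
  rw [e1, e2, coup, if_pos ⟨hLa, hLb, h⟩]
  set D := ((a Q + b Q - 2 * L).choose J : ℝ) * ((a Q).choose M : ℝ) * ((b Q).choose k : ℝ)
    * coupN (a Q) (b Q) L
  rw [Real.sqrt_div' _ (sq_nonneg _), Real.sqrt_sq hQJ.le, div_div_div_cancel_right₀ hQJ.ne']

lemma coupLim_zero {α β : ℝ} (hα : 0 < α) (hβ : 0 < β) {L k : ℕ} (hk : k ≤ L) :
    coupLim α β L 0 (L - k) k = (-1 : ℝ) ^ (L - k) * Real.sqrt ((L.factorial : ℝ) * α ^ k * β ^ (L - k)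
      / ((k.factorial : ℝ) * ((L - k).factorial : ℝ) * (α + β) ^ L)) := by
  unfold coupLim
  rw [sum_eq_single (L - k)]
  · rw [if_pos ⟨le_rfl, by omega⟩, Nat.sub_self, show k + (L - k) - L = 0 by omega,
      Nat.choose_symm hk, Nat.cast_choose ℝ hk]
    simp only [pow_zero, Nat.factorial_zero, Nat.cast_one, div_one, mul_one, one_mul]
    rw [mul_div_assoc]
    congr 1
    refine (sq_eq_sq₀ (by positivity) (Real.sqrt_nonneg _)).1 ?_
    rw [div_pow, Real.sq_sqrt (by positivity), Real.sq_sqrt (by positivity), div_add_div _ _ hα.ne' hβ.ne',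
      one_mul, mul_one, add_comm β α, div_pow, mul_pow]
    have ea : α ^ L = α ^ k * α ^ (L - k) := by rw [← pow_add, Nat.add_sub_cancel' hk]
    have eb : β ^ L = β ^ k * β ^ (L - k) := by rw [← pow_add, Nat.add_sub_cancel' hk]
    rw [div_pow, mul_pow α β, ea, eb]
    field_simp
  · intro i hi hne
    rw [mem_range] at hi
    exact if_neg (by omega)
  · intro hn
    exact absurd (mem_range.2 (by omega)) hn

end P359

end
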